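import Vale.Agent.P249.Defs
import Vale.Agent.P249.Main

namespace Vale.Agent.Results.P249.Subpolynomial

open Vale.Agent.P249 Filter Asymptotics

universe u

/-- `d_p(n, D) ≤ exp (C log n / log log n)`; in particular `d_p(n, D) = n^{o(1)}` and
`d_p(n, D) = o(n)`. The first conjunct also records that the least `d` is attained. -/
theorem result (p D : ℝ) (hp : 1 < p) (hD : 1 < D) :
    (∃ C : ℝ, ∀ n : ℕ, 3 ≤ n → Embeds.{u} p D n (dimRed.{u} p D n) ∧
      (dimRed.{u} p D n : ℝ) ≤ Real.exp (C * Real.log n / Real.log (Real.log n))) ∧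
    (∀ δ : ℝ, 0 < δ →
      (fun n : ℕ => (dimRed.{u} p D n : ℝ)) =o[atTop] fun n : ℕ => (n : ℝ) ^ δ) ∧
    (fun n : ℕ => (dimRed.{u} p D n : ℝ)) =o[atTop] fun n : ℕ => (n : ℝ) :=
  ⟨(dimRed_bound hp hD).imp fun _ h => h.2, fun _ h => dimRed_littleO hp hD h,
    by simpa using dimRed_littleO hp hD one_pos⟩

end Vale.Agent.Results.P249.Subpolynomial
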